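import Vale.Agent.P216.H923F.KerC

/-!
# P216-E: an integral 2-cocycle becomes alternating by an integral coboundary
-/

set_option linter.all false

open Set Finset

namespace Vale.Agent.P216.H923F

variable {M : Type} [MetricSpace M] {δ : ℝ} {c : M → M → M → ℤ}

/-- A normalised integral 2-cocycle on the `δ`-small tuples. -/
structure NrmC (c : M → M → M → ℤ) (δ : ℝ) : Prop where
  coc : ∀ x y z w, dist x y < δ → dist x z < δ → dist x w < δ → dist y z < δ → dist y w < δ →
    dist z w < δ → c y z w - c x z w + c x y w - c x y z = 0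
  n1 : ∀ x y, dist x y < δ → c x x y = 0
  n2 : ∀ x y, dist x y < δ → c x y y = 0

open Classical in
/-- The correction. -/
noncomputable def bb (c : M → M → M → ℤ) (x y : M) : ℤ :=
  if WellOrderingRel y x then -c x y x else 0

/-- The alternating cocycle. -/
noncomputable def ac (c : M → M → M → ℤ) (x y z : M) : ℤ :=
  c x y z + (bb c y z - bb c x z + bb c x y)

theorem bb_self (c : M → M → M → ℤ) (x : M) : bb c x x = 0 := by
  unfold bb
  exact if_neg (irrefl x)

theorem NrmC.ac_self (h : NrmC c δ) {x y : M} (hxy : dist x y < δ) : ac c x y x = 0 := by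
  have hδ : 0 < δ := dist_nonneg.trans_lt hxy
  have hxx : dist x x < δ := by rwa [dist_self]
  have hyy : dist y y < δ := by rwa [dist_self]
  have hyx : dist y x < δ := by rwa [dist_comm]
  have e := h.coc x y x y hxy hxx hxy hyx hyy hxy
  rw [h.n1 x y hxy, h.n2 x y hxy] at e
  unfold ac
  rw [bb_self]
  rcases trichotomous_of (WellOrderingRel (α := M)) x y with h1 | h1 | h1
  · have h2 : ¬ WellOrderingRel y x := fun h2 => asymm h1 h2
    unfold bb
    rw [if_pos h1, if_neg h2]
    linarith
  · subst h1
    rw [bb_self, h.n1 x x hxx]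
    ring
  · have h2 : ¬ WellOrderingRel x y := fun h2 => asymm h1 h2
    unfold bb
    rw [if_pos h1, if_neg h2]
    linarith

/-- **The alternating cocycle.** -/
theorem NrmC.altC (h : NrmC c δ) : AltC (ac c) δ := by
  have coc : ∀ x y z w, dist x y < δ → dist x z < δ → dist x w < δ → dist y z < δ →
      dist y w < δ → dist z w < δ → ac c y z w - ac c x z w + ac c x y w - ac c x y z = 0 := by
    intro x y z w h1 h2 h3 h4 h5 h6
    have := h.coc x y z w h1 h2 h3 h4 h5 h6
    unfold ac
    linarith
  have n1 : ∀ x y, dist x y < δ → ac c x x y = 0 := fun x y hxy => by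
    unfold ac
    rw [h.n1 x y hxy, bb_self]
    ring
  have n2 : ∀ x y, dist x y < δ → ac c x y y = 0 := fun x y hxy => by
    unfold ac
    rw [h.n2 x y hxy, bb_self]
    ring
  refine ⟨coc, fun x y z h1 h2 h3 => ?_, fun x y z h1 h2 h3 => ?_⟩
  · have hδ : 0 < δ := dist_nonneg.trans_lt h1
    have hxx : dist x x < δ := by rwa [dist_self]
    have e := coc x y x z h1 hxx h2 (by rwa [dist_comm]) h3 h2
    rw [n1 x z h2, h.ac_self h1] at e
    linarith
  · have hδ : 0 < δ := dist_nonneg.trans_lt h1
    have hyy : dist y y < δ := by rwa [dist_self]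
    have e := coc x y z y h1 h2 h1 h3 hyy (by rwa [dist_comm])
    rw [n2 x y h1, h.ac_self h3] at e
    linarith

/-- **The kernel of a normalised integral 2-cocycle on lists** (`int_two`). -/
theorem exists_kerL [CompactSpace M] (c : List M → ℤ) {ε : ℝ} (hε : 0 < ε)
    (hn : ∀ l : List M, ¬ l.IsChain (· ≠ ·) → c l = 0)
    (hc : ∀ x y z w : M, dist x y < ε → dist x z < ε → dist x w < ε → dist y z < ε →
      dist y w < ε → dist z w < ε → c [y, z, w] - c [x, z, w] + c [x, y, w] - c [x, y, z] = 0) :
    ∃ (b : M → M → ℤ) (κ : M → M → ℂ) (e : M → M → ℝ) (j : M → M) (A r : ℝ), 0 < r ∧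
      KerD (fun x y z => c [x, y, z] + (b y z - b x z + b x y)) ε κ e j A r := by
  have h : NrmC (fun x y z => c [x, y, z]) ε := by
    refine ⟨hc, fun x y _ => hn _ ?_, fun x y _ => hn _ ?_⟩
    · intro h
      rw [List.isChain_cons_cons] at h
      exact h.1 rfl
    · intro h
      rw [List.isChain_cons_cons, List.isChain_cons_cons] at h
      exact h.2.1 rfl
  obtain ⟨κ, e, j, A, r, hr, hK⟩ := exists_kerD hε h.altC
  exact ⟨bb fun x y z => c [x, y, z], κ, e, j, A, r, hr, hK⟩

end Vale.Agent.P216.H923F
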