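import Vale.Agent.P216.H923F.Pu
import Vale.Agent.P216.L250.ToHol

/-!
# P216-E: the kernel of an integral 2-cocycle

`AltC c δ`: an alternating integral 2-cocycle on the `δ`-small tuples of `M`.
`exists_kerD`: a kernel `κ (x, y) = exp (2 π i e (x, y))` with
`e (x, y) + e (y, z) + e (z, x) = O (dist x y * dist y z) - c (j x, j y, j z)`.
-/

set_option linter.all false

open Set Finset

namespace Vale.Agent.P216.H923F

open Vale.Agent.P216.L250

variable {M : Type} [MetricSpace M]

/-- An alternating integral 2-cocycle on the `δ`-small tuples. -/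
structure AltC (c : M → M → M → ℤ) (δ : ℝ) : Prop where
  coc : ∀ x y z w, dist x y < δ → dist x z < δ → dist x w < δ → dist y z < δ → dist y w < δ →
    dist z w < δ → c y z w - c x z w + c x y w - c x y z = 0
  alt1 : ∀ x y z, dist x y < δ → dist x z < δ → dist y z < δ → c y x z = -c x y z
  alt2 : ∀ x y z, dist x y < δ → dist x z < δ → dist y z < δ → c x z y = -c x y z

/-- The exponent of the kernel. -/
def eE (F : Finset M) (φ : M → M → ℝ) (j : M → M) (c : M → M → M → ℤ) (x y : M) : ℝ :=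
  ∑ k ∈ F, ∑ l ∈ F, φ k x * φ l y * ((c (j x) k l - c (j x) (j y) l : ℤ) : ℝ)

variable {F : Finset M} {φ : M → M → ℝ} {r L δ : ℝ} {c : M → M → M → ℤ} {j : M → M} {x y z : M}

/-- Close labels. -/
theorem PU.near (h : PU F φ r L) (hδ : 8 * r ≤ δ) (hxy : dist x y < r) {k l : M}
    (hk : φ k x ≠ 0 ∨ dist x k < r) (hl : φ l y ≠ 0 ∨ dist y l < r) : dist k l < δ := by
  have hr := h.rpos
  have h1 : dist x k < 2 * r := hk.elim (h.supp k x) fun h => by linarith
  have h2 : dist y l < 2 * r := hl.elim (h.supp l y) fun h => by linarith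
  have h3 := dist_triangle4 k x y l
  rw [dist_comm k x] at h3
  linarith

theorem eE_symm (h : PU F φ r L) (hc : AltC c δ) (hδ : 8 * r ≤ δ) (hj : ∀ x, dist x (j x) < r)
    (hxy : dist x y < r) : eE F φ j c y x = -eE F φ j c x y := by
  unfold eE
  rw [Finset.sum_comm, ← Finset.sum_neg_distrib]
  refine Finset.sum_congr rfl fun k _ => ?_
  rw [← Finset.sum_neg_distrib]
  refine Finset.sum_congr rfl fun l _ => ?_
  by_cases h1 : φ k x = 0
  · rw [h1]; ring
  by_cases h2 : φ l y = 0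
  · rw [h2]; ring
  have hr := h.rpos
  have xx : dist x x < r := by rwa [dist_self]
  have yy : dist y y < r := by rwa [dist_self]
  have a1 : dist (j x) (j y) < δ := h.near hδ hxy (.inr (hj x)) (.inr (hj y))
  have a2 : dist (j x) k < δ := h.near hδ xx (.inr (hj x)) (.inl h1)
  have a3 : dist (j x) l < δ := h.near hδ hxy (.inr (hj x)) (.inl h2)
  have a4 : dist (j y) k < δ := by
    rw [dist_comm]
    exact h.near hδ hxy (.inl h1) (.inr (hj y))
  have a5 : dist (j y) l < δ := h.near hδ yy (.inr (hj y)) (.inl h2)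
  have a6 : dist k l < δ := h.near hδ hxy (.inl h1) (.inl h2)
  have b1 := hc.coc (j x) (j y) k l a1 a2 a3 a4 a5 a6
  have b2 := hc.alt2 (j y) k l a4 a5 a6
  have b3 := hc.alt1 (j x) (j y) k a1 a2 a4
  have b4 : c (j y) l k - c (j y) (j x) k = -(c (j x) k l - c (j x) (j y) l) := by
    rw [b2, b3]
    linarith
  rw [b4, Int.cast_neg]
  ring

theorem eE_self (h : PU F φ r L) (hc : AltC c δ) (hδ : 8 * r ≤ δ) (hj : ∀ x, dist x (j x) < r)
    (x : M) : eE F φ j c x x = 0 := by
  have := eE_symm h hc hδ hj (x := x) (y := x) (by rw [dist_self]; exact h.rpos)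
  linarith

/-- **The sum over a small triangle.** -/
theorem eE_tri (h : PU F φ r L) (hc : AltC c δ) (hδ : 8 * r ≤ δ) (hj : ∀ x, dist x (j x) < r)
    (hxy : dist x y < r) (hyz : dist y z < r) (hxz : dist x z < r) :
    eE F φ j c x y + eE F φ j c y z + eE F φ j c z x =
      T3 F φ (fun k l m => (c k l m : ℝ)) x y z - c (j x) (j y) (j z) := by
  have e1 : eE F φ j c x y = T3 F φ
      (fun k l _ => ((c (j x) k l - c (j x) (j y) l : ℤ) : ℝ)) x y z :=
    (h.T3_12 fun k l => ((c (j x) k l - c (j x) (j y) l : ℤ) : ℝ)).symm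
  have e2 : eE F φ j c y z = T3 F φ
      (fun _ l m => ((c (j y) l m - c (j y) (j z) m : ℤ) : ℝ)) x y z :=
    (h.T3_23 fun l m => ((c (j y) l m - c (j y) (j z) m : ℤ) : ℝ)).symm
  have e3 : eE F φ j c z x = T3 F φ
      (fun k _ m => ((c (j z) m k - c (j z) (j x) k : ℤ) : ℝ)) x y z :=
    (h.T3_31 fun m k => ((c (j z) m k - c (j z) (j x) k : ℤ) : ℝ)).symm
  have e4 : ((c (j x) (j y) (j z) : ℤ) : ℝ) =
      T3 F φ (fun _ _ _ => ((c (j x) (j y) (j z) : ℤ) : ℝ)) x y z := (h.T3_const _).symm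
  rw [e1, e2, e3, e4, ← T3_add, ← T3_add, sub_eq_add_neg, ← T3_neg, ← T3_add]
  refine T3_congr fun k l m h1 h2 h3 => ?_
  have hr := h.rpos
  have xx : dist x x < r := by rwa [dist_self]
  have yy : dist y y < r := by rwa [dist_self]
  have zz : dist z z < r := by rwa [dist_self]
  have jx : φ (j x) x ≠ 0 ∨ dist x (j x) < r := .inr (hj x)
  have jy : φ (j y) y ≠ 0 ∨ dist y (j y) < r := .inr (hj y)
  have jz : φ (j z) z ≠ 0 ∨ dist z (j z) < r := .inr (hj z)
  have kx : φ k x ≠ 0 ∨ dist x k < r := .inl h1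
  have ly : φ l y ≠ 0 ∨ dist y l < r := .inl h2
  have mz : φ m z ≠ 0 ∨ dist z m < r := .inl h3
  -- distances
  have d1 : dist (j x) k < δ := h.near hδ xx jx kx
  have d2 : dist (j x) l < δ := h.near hδ hxy jx ly
  have d3 : dist (j x) m < δ := h.near hδ hxz jx mz
  have d4 : dist k l < δ := h.near hδ hxy kx ly
  have d5 : dist k m < δ := h.near hδ hxz kx mz
  have d6 : dist l m < δ := h.near hδ hyz ly mz
  have d7 : dist (j x) (j y) < δ := h.near hδ hxy jx jy
  have d8 : dist (j x) (j z) < δ := h.near hδ hxz jx jz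
  have d9 : dist (j y) (j z) < δ := h.near hδ hyz jy jz
  have d10 : dist (j y) l < δ := h.near hδ yy jy ly
  have d11 : dist (j y) m < δ := h.near hδ hyz jy mz
  have d12 : dist (j z) m < δ := h.near hδ zz jz mz
  have d13 : dist (j z) k < δ := by
    rw [dist_comm]
    exact h.near hδ hxz kx jz
  have d14 : dist m k < δ := by rwa [dist_comm]
  have b1 := hc.coc (j x) k l m d1 d2 d3 d4 d5 d6
  have b2 := hc.coc (j x) (j y) l m d7 d2 d3 d10 d11 d6
  have b3 := hc.coc (j x) (j y) (j z) m d7 d8 d3 d9 d11 d12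
  have b4 := hc.coc (j x) (j z) m k d8 d3 d1 d12 d13 d14
  have b5 := hc.alt1 (j x) (j z) k d8 d1 d13
  have b6 := hc.alt2 (j x) k m d1 d3 d5
  have b7 : (c (j x) k l - c (j x) (j y) l) + (c (j y) l m - c (j y) (j z) m) +
      (c (j z) m k - c (j z) (j x) k) = c k l m + -c (j x) (j y) (j z) := by
    linarith
  exact_mod_cast b7

/-- The exponent of the kernel over a small triangle, up to integers. -/
theorem abs_T3_c_le (h : PU F φ r L) (hc : AltC c δ) (hδ : 8 * r ≤ δ)
    (hxy : dist x y < r) (hyz : dist y z < r) (hxz : dist x z < r) :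
    |T3 F φ (fun k l m => (c k l m : ℝ)) x y z| ≤
      L ^ 2 * (∑ k ∈ F, ∑ l ∈ F, ∑ m ∈ F, |(c k l m : ℝ)|) * dist x y * dist y z := by
  have hr := h.rpos
  have xx : dist x x < r := by rwa [dist_self]
  have yy : dist y y < r := by rwa [dist_self]
  refine h.abs_T3_le (fun k l m h1 h2 h3 => ?_) (fun k l m h1 h2 h3 => ?_)
    (fun k l m h1 h2 h3 => ?_)
  · have := hc.alt1 k l m (h.near hδ yy (.inl h1) (.inl h2)) (h.near hδ hyz (.inl h1) (.inl h3))
      (h.near hδ hyz (.inl h2) (.inl h3))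
    exact_mod_cast this
  · have := hc.alt2 k l m (h.near hδ hxy (.inl h1) (.inl h2)) (h.near hδ hxy (.inl h1) (.inl h3))
      (h.near hδ yy (.inl h2) (.inl h3))
    exact_mod_cast this
  · have := hc.alt1 k l m (h.near hδ yy (.inl h1) (.inl h2)) (h.near hδ yy (.inl h1) (.inl h3))
      (h.near hδ yy (.inl h2) (.inl h3))
    exact_mod_cast this

/-! ### The exponential -/

/-- `exp (2 π i t)` -/
noncomputable def ex (t : ℝ) : ℂ := Complex.exp (Complex.I * ((2 * Real.pi * t : ℝ) : ℂ))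

theorem ex_add (s t : ℝ) : ex (s + t) = ex s * ex t := by
  unfold ex
  rw [← Complex.exp_add]
  congr 1
  push_cast
  ring

theorem ex_zero : ex 0 = 1 := by
  unfold ex
  rw [mul_zero, Complex.ofReal_zero, mul_zero, Complex.exp_zero]

theorem norm_ex (t : ℝ) : ‖ex t‖ = 1 := by
  unfold ex
  rw [mul_comm, Complex.norm_exp_ofReal_mul_I]

theorem ex_ne_zero (t : ℝ) : ex t ≠ 0 := Complex.exp_ne_zero _

theorem ex_neg (t : ℝ) : ex (-t) = (starRingEnd ℂ) (ex t) := by
  unfold ex
  rw [← Complex.exp_conj]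
  congr 1
  rw [map_mul, Complex.conj_I, Complex.conj_ofReal]
  push_cast
  ring

theorem ex_int (n : ℤ) : ex n = 1 := by
  unfold ex
  rw [show Complex.I * ((2 * Real.pi * (n : ℝ) : ℝ) : ℂ) = n * (2 * Real.pi * Complex.I) by
    push_cast; ring]
  exact Complex.exp_int_mul_two_pi_mul_I n

theorem norm_ex_sub_one_le (t : ℝ) : ‖ex t - 1‖ ≤ 2 * Real.pi * |t| := by
  refine Real.norm_exp_I_mul_ofReal_sub_one_le.trans_eq ?_
  rw [Real.norm_eq_abs, abs_mul, abs_of_pos (by positivity)]

theorem ex_half_sq (t : ℝ) : ex (t / 2) ^ 2 = ex t := by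
  rw [sq, ← ex_add, add_halves]

theorem ex_half_int (n : ℤ) : ex ((n : ℝ) / 2) = (-1) ^ n := by
  have h1 : ex (1 / 2) = -1 := by
    unfold ex
    rw [show Complex.I * ((2 * Real.pi * (1 / 2) : ℝ) : ℂ) = Real.pi * Complex.I by
      push_cast; ring]
    exact Complex.exp_pi_mul_I
  have h2 : ∀ m : ℕ, ex ((m : ℝ) / 2) = (-1) ^ m := by
    intro m
    induction m with
    | zero => rw [Nat.cast_zero, zero_div, ex_zero, pow_zero]
    | succ m ih =>
      rw [Nat.cast_succ, add_div, ex_add, ih, h1, pow_succ]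
  obtain ⟨m, rfl | rfl⟩ := n.eq_nat_or_neg
  · rw [Int.cast_natCast, h2, zpow_natCast]
  · rw [Int.cast_neg, Int.cast_natCast, neg_div, ex_neg, h2, zpow_neg, zpow_natCast]
    rw [map_pow, map_neg, map_one]
    rcases neg_one_pow_eq_or ℂ m with h | h <;> rw [h] <;> norm_num

/-- **The data of a kernel with an exponent.** `κ (x, y) = exp (2 π i e (x, y))` for close points;
`e (x, y) + e (y, z) + e (z, x)` is `- c (j x, j y, j z)` up to `A * dist x y * dist y z`. -/
structure KerD (c : M → M → M → ℤ) (δ : ℝ) (κ : M → M → ℂ) (e : M → M → ℝ) (j : M → M)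
    (A r : ℝ) : Prop where
  ker : Ker κ (2 * Real.pi * A) r
  A_nn : 0 ≤ A
  hr : 16 * r ≤ δ
  hj : ∀ x, dist x (j x) < 2 * r
  eq : ∀ x y, dist x y < 2 * r → κ x y = ex (e x y)
  symm : ∀ x y, dist x y < 2 * r → e y x = -e x y
  self : ∀ x, e x x = 0
  tri : ∀ x y z, dist x y < r → dist y z < r →
    |e x y + e y z + e z x + c (j x) (j y) (j z)| ≤ A * dist x y * dist y z

/-- **The kernel of an integral 2-cocycle.** -/
theorem exists_kerD [CompactSpace M] (hδ : 0 < δ) (hc : AltC c δ) :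
    ∃ κ e j A r, 0 < r ∧ KerD c δ κ e j A r := by
  obtain ⟨F, φ, L, h⟩ := exists_pu (M := M) (r := δ / 8) (by linarith)
  choose j hjF hj using h.net
  have hδ8 : 8 * (δ / 8) ≤ δ := by linarith
  set r : ℝ := δ / 16 with hr
  have hr0 : 0 < r := by positivity
  have hr2 : 2 * r = δ / 8 := by rw [hr]; ring
  set B : ℝ := L ^ 2 * (∑ k ∈ F, ∑ l ∈ F, ∑ m ∈ F, |(c k l m : ℝ)|) with hB
  have hB0 : 0 ≤ B := by positivity
  have hpi := Real.pi_pos
  have hsymm : ∀ x y, dist x y < 2 * r → eE F φ j c y x = -eE F φ j c x y := fun x y hxy =>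
    eE_symm h hc hδ8 hj (by rwa [← hr2])
  have hself : ∀ x, eE F φ j c x x = 0 := eE_self h hc hδ8 hj
  have htri : ∀ x y z, dist x y < r → dist y z < r →
      |eE F φ j c x y + eE F φ j c y z + eE F φ j c z x + c (j x) (j y) (j z)| ≤
        B * dist x y * dist y z := fun x y z hxy hyz => by
    have hxz : dist x z < 2 * r := (dist_triangle x y z).trans_lt (by linarith)
    have e1 := eE_tri h hc hδ8 hj (x := x) (y := y) (z := z) (by linarith) (by linarith)
      (by linarith)
    have e2 := abs_T3_c_le h hc hδ8 (x := x) (y := y) (z := z) (by linarith) (by linarith)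
      (by linarith)
    rw [e1, sub_add_cancel]
    exact e2
  set κ : M → M → ℂ := fun x y => if dist x y < 2 * r then ex (eE F φ j c x y) else 1 with hκ
  have hκ1 : ∀ x y, dist x y < 2 * r → κ x y = ex (eE F φ j c x y) := fun x y h => if_pos h
  have hκ2 : ∀ x y, ¬ dist x y < 2 * r → κ x y = 1 := fun x y h => if_neg h
  refine ⟨κ, eE F φ j c, j, B, r, hr0, ⟨hr0, by positivity, fun x y => ?_, fun x y => ?_,
    fun x => ?_, fun x y z hxy hyz => ?_⟩, hB0, by rw [hr]; linarith,
    fun x => by rw [hr2]; exact hj x, hκ1, hsymm, hself, htri⟩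
  · by_cases hd : dist x y < 2 * r
    · rw [hκ1 x y hd, norm_ex]
    · rw [hκ2 x y hd, norm_one]
  · by_cases hd : dist x y < 2 * r
    · rw [hκ1 x y hd, hκ1 y x (by rwa [dist_comm]), hsymm x y hd, ex_neg]
    · rw [hκ2 x y hd, hκ2 y x (by rwa [dist_comm]), map_one]
  · rw [hκ1 x x (by rw [dist_self]; linarith), hself, ex_zero]
  · have hxz : dist z x < 2 * r := by
      rw [dist_comm]
      exact (dist_triangle x y z).trans_lt (by linarith)
    rw [hκ1 x y (by linarith), hκ1 y z (by linarith), hκ1 z x hxz, ← ex_add, ← ex_add]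
    have e1 := htri x y z hxy hyz
    have e2 : ex (eE F φ j c x y + eE F φ j c y z + eE F φ j c z x) =
        ex (eE F φ j c x y + eE F φ j c y z + eE F φ j c z x + c (j x) (j y) (j z)) := by
      rw [ex_add _ (c (j x) (j y) (j z) : ℝ), ex_int, mul_one]
    rw [e2]
    refine (norm_ex_sub_one_le _).trans ?_
    rw [mul_assoc (2 * Real.pi * B), mul_assoc (2 * Real.pi), ← mul_assoc B]
    exact mul_le_mul_of_nonneg_left e1 (by positivity)

end Vale.Agent.P216.H923F
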