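import Mathlib

/-!
# P216-E: Lipschitz partitions of unity on a compact metric space, trilinear sums
-/

set_option linter.all false

open Set Finset

namespace Vale.Agent.P216.H923F

variable {M : Type} [MetricSpace M]

/-- A Lipschitz partition of unity, indexed by the points of a finite net of mesh `r`. -/
structure PU (F : Finset M) (φ : M → M → ℝ) (r L : ℝ) : Prop where
  rpos : 0 < r
  Lnn : 0 ≤ L
  net : ∀ x, ∃ v ∈ F, dist x v < r
  nonneg : ∀ v x, 0 ≤ φ v x
  sum : ∀ x, ∑ v ∈ F, φ v x = 1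
  supp : ∀ v x, φ v x ≠ 0 → dist x v < 2 * r
  lip : ∀ v ∈ F, ∀ x y, |φ v x - φ v y| ≤ L * dist x y

theorem exists_pu [CompactSpace M] {r : ℝ} (hr : 0 < r) :
    ∃ (F : Finset M) (φ : M → M → ℝ) (L : ℝ), PU F φ r L := by
  classical
  obtain ⟨t, -, ht, hc⟩ := isCompact_univ.finite_cover_balls (s := (univ : Set M)) hr
  set F : Finset M := ht.toFinset with hF
  have net : ∀ x, ∃ v ∈ F, dist x v < r := fun x => by
    have := hc (mem_univ x)
    simp only [mem_iUnion, Metric.mem_ball, exists_prop] at this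
    obtain ⟨v, hv, h⟩ := this
    exact ⟨v, by rwa [hF, Set.Finite.mem_toFinset], h⟩
  set ψ : M → M → ℝ := fun v x => max 0 (2 * r - dist x v) with hψ
  have ψ0 : ∀ v x, 0 ≤ ψ v x := fun v x => le_max_left _ _
  have ψl : ∀ v x y, |ψ v x - ψ v y| ≤ dist x y := fun v x y => by
    refine (abs_max_sub_max_le_max _ _ _ _).trans (max_le (by simp) ?_)
    rw [show 2 * r - dist x v - (2 * r - dist y v) = -(dist x v - dist y v) by ring, abs_neg]
    exact abs_dist_sub_le x y v
  set S : M → ℝ := fun x => ∑ v ∈ F, ψ v x with hS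
  have S0 : ∀ x, r ≤ S x := fun x => by
    obtain ⟨v, hv, h⟩ := net x
    calc r ≤ ψ v x := le_trans (by linarith) (le_max_right _ _)
      _ ≤ S x := Finset.single_le_sum (f := fun v => ψ v x) (fun v _ => ψ0 v x) hv
  have Sp : ∀ x, 0 < S x := fun x => hr.trans_le (S0 x)
  have Sl : ∀ x y, |S x - S y| ≤ (F.card : ℝ) * dist x y := fun x y => by
    rw [hS]
    simp only
    rw [← Finset.sum_sub_distrib]
    refine (Finset.abs_sum_le_sum_abs _ _).trans ?_
    refine (Finset.sum_le_sum fun v _ => ψl v x y).trans_eq ?_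
    rw [Finset.sum_const, nsmul_eq_mul]
  refine ⟨F, fun v x => ψ v x / S x, (F.card + 1) / r, hr, by positivity, net,
    fun v x => div_nonneg (ψ0 v x) (Sp x).le, fun x => ?_, fun v x h => ?_, fun v hv x y => ?_⟩
  · rw [← Finset.sum_div]
    exact div_self (Sp x).ne'
  · by_contra h'
    apply h
    have : ψ v x = 0 := max_eq_left (by linarith [not_lt.1 h'])
    show ψ v x / S x = 0
    rw [this, zero_div]
  · have hvS : ψ v y ≤ S y :=
      Finset.single_le_sum (f := fun v => ψ v y) (fun v _ => ψ0 v y) hv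
    have e : ψ v x / S x - ψ v y / S y =
        (ψ v x - ψ v y) / S x + (ψ v y / S y) * ((S y - S x) / S x) := by
      have h1 := (Sp x).ne'
      have h2 := (Sp y).ne'
      field_simp
      ring
    rw [e]
    have h1 : |(ψ v x - ψ v y) / S x| ≤ dist x y / r := by
      rw [abs_div, abs_of_pos (Sp x)]
      exact div_le_div₀ dist_nonneg (ψl v x y) hr (S0 x)
    have h2 : |(S y - S x) / S x| ≤ (F.card : ℝ) * dist x y / r := by
      rw [abs_div, abs_of_pos (Sp x), abs_sub_comm]
      exact div_le_div₀ (by positivity) (Sl x y) hr (S0 x)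
    have h3 : |ψ v y / S y| ≤ 1 := by
      rw [abs_of_nonneg (div_nonneg (ψ0 v y) (Sp y).le)]
      exact (div_le_one (Sp y)).2 hvS
    calc |(ψ v x - ψ v y) / S x + (ψ v y / S y) * ((S y - S x) / S x)|
        ≤ |(ψ v x - ψ v y) / S x| + |(ψ v y / S y) * ((S y - S x) / S x)| := abs_add_le _ _
      _ ≤ dist x y / r + 1 * ((F.card : ℝ) * dist x y / r) := by
          rw [abs_mul]
          exact add_le_add h1 (mul_le_mul h3 h2 (abs_nonneg _) zero_le_one)
      _ = (F.card + 1) / r * dist x y := by ring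

/-! ### Trilinear sums -/

variable (F : Finset M) (φ : M → M → ℝ)

/-- The trilinear extension of `f`. -/
def T3 (f : M → M → M → ℝ) (x y z : M) : ℝ :=
  ∑ k ∈ F, ∑ l ∈ F, ∑ m ∈ F, φ k x * φ l y * φ m z * f k l m

variable {F φ} {f g : M → M → M → ℝ} {x y z : M} {r L : ℝ}

theorem T3_congr (h : ∀ k l m, φ k x ≠ 0 → φ l y ≠ 0 → φ m z ≠ 0 → f k l m = g k l m) :
    T3 F φ f x y z = T3 F φ g x y z := by
  unfold T3
  refine Finset.sum_congr rfl fun k _ => Finset.sum_congr rfl fun l _ =>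
    Finset.sum_congr rfl fun m _ => ?_
  by_cases h1 : φ k x = 0
  · rw [h1]; ring
  by_cases h2 : φ l y = 0
  · rw [h2]; ring
  by_cases h3 : φ m z = 0
  · rw [h3]; ring
  rw [h k l m h1 h2 h3]

theorem T3_add : T3 F φ (fun k l m => f k l m + g k l m) x y z =
    T3 F φ f x y z + T3 F φ g x y z := by
  unfold T3
  simp only [mul_add, Finset.sum_add_distrib]

theorem T3_neg : T3 F φ (fun k l m => -f k l m) x y z = -T3 F φ f x y z := by
  unfold T3
  simp only [mul_neg, Finset.sum_neg_distrib]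

/-- A function of the first two variables. -/
theorem PU.T3_12 (h : PU F φ r L) (f : M → M → ℝ) : T3 F φ (fun k l _ => f k l) x y z =
    ∑ k ∈ F, ∑ l ∈ F, φ k x * φ l y * f k l := by
  unfold T3
  refine Finset.sum_congr rfl fun k _ => Finset.sum_congr rfl fun l _ => ?_
  rw [← Finset.sum_mul, ← Finset.mul_sum, h.sum, mul_one]

/-- A function of the last two variables. -/
theorem PU.T3_23 (h : PU F φ r L) (f : M → M → ℝ) : T3 F φ (fun _ l m => f l m) x y z =
    ∑ k ∈ F, ∑ l ∈ F, φ k y * φ l z * f k l := by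
  unfold T3
  rw [show (∑ k ∈ F, ∑ l ∈ F, ∑ m ∈ F, φ k x * φ l y * φ m z * f l m) =
    ∑ k ∈ F, φ k x * ∑ l ∈ F, ∑ m ∈ F, φ l y * φ m z * f l m from
    Finset.sum_congr rfl fun k _ => by
      rw [Finset.mul_sum]
      refine Finset.sum_congr rfl fun l _ => ?_
      rw [Finset.mul_sum]
      exact Finset.sum_congr rfl fun m _ => by ring]
  rw [← Finset.sum_mul, h.sum, one_mul]

/-- A function of the last and the first variable. -/
theorem PU.T3_31 (h : PU F φ r L) (f : M → M → ℝ) : T3 F φ (fun k _ m => f m k) x y z =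
    ∑ k ∈ F, ∑ l ∈ F, φ k z * φ l x * f k l := by
  unfold T3
  rw [Finset.sum_comm]
  rw [show (∑ l ∈ F, ∑ k ∈ F, ∑ m ∈ F, φ k x * φ l y * φ m z * f m k) =
    ∑ l ∈ F, φ l y * ∑ k ∈ F, ∑ m ∈ F, φ m z * φ k x * f m k from
    Finset.sum_congr rfl fun l _ => by
      rw [Finset.mul_sum]
      refine Finset.sum_congr rfl fun k _ => ?_
      rw [Finset.mul_sum]
      exact Finset.sum_congr rfl fun m _ => by ring]
  rw [← Finset.sum_mul, h.sum, one_mul, Finset.sum_comm]

theorem PU.T3_const (h : PU F φ r L) (a : ℝ) : T3 F φ (fun _ _ _ => a) x y z = a := by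
  rw [h.T3_12 (fun _ _ => a)]
  simp only [← Finset.sum_mul, ← Finset.mul_sum, h.sum, mul_one, one_mul]

/-- Antisymmetry in the first two variables. -/
theorem T3_eq_zero_12 (h : ∀ k l m, φ k x ≠ 0 → φ l x ≠ 0 → φ m z ≠ 0 → f l k m = -f k l m) :
    T3 F φ f x x z = 0 := by
  have e : T3 F φ f x x z = T3 F φ (fun k l m => f l k m) x x z := by
    unfold T3
    rw [Finset.sum_comm]
    exact Finset.sum_congr rfl fun k _ => Finset.sum_congr rfl fun l _ =>
      Finset.sum_congr rfl fun m _ => by ring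
  have e2 : T3 F φ (fun k l m => f l k m) x x z = T3 F φ (fun k l m => -f k l m) x x z :=
    T3_congr fun k l m h1 h2 h3 => h k l m h1 h2 h3
  rw [T3_neg] at e2
  linarith

/-- Antisymmetry in the last two variables. -/
theorem T3_eq_zero_23 (h : ∀ k l m, φ k x ≠ 0 → φ l y ≠ 0 → φ m y ≠ 0 → f k m l = -f k l m) :
    T3 F φ f x y y = 0 := by
  have e : T3 F φ f x y y = T3 F φ (fun k l m => f k m l) x y y := by
    unfold T3
    refine Finset.sum_congr rfl fun k _ => ?_
    rw [Finset.sum_comm]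
    exact Finset.sum_congr rfl fun l _ =>
      Finset.sum_congr rfl fun m _ => by ring
  have e2 : T3 F φ (fun k l m => f k m l) x y y = T3 F φ (fun k l m => -f k l m) x y y :=
    T3_congr fun k l m h1 h2 h3 => h k l m h1 h2 h3
  rw [T3_neg] at e2
  linarith

/-- The quadratic estimate. -/
theorem PU.abs_T3_le (h : PU F φ r L)
    (h1 : ∀ k l m, φ k y ≠ 0 → φ l y ≠ 0 → φ m z ≠ 0 → f l k m = -f k l m)
    (h2 : ∀ k l m, φ k x ≠ 0 → φ l y ≠ 0 → φ m y ≠ 0 → f k m l = -f k l m)
    (h3 : ∀ k l m, φ k y ≠ 0 → φ l y ≠ 0 → φ m y ≠ 0 → f l k m = -f k l m) :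
    |T3 F φ f x y z| ≤ L ^ 2 * (∑ k ∈ F, ∑ l ∈ F, ∑ m ∈ F, |f k l m|) * dist x y * dist y z := by
  have e1 : T3 F φ f y y z = 0 := T3_eq_zero_12 h1
  have e2 : T3 F φ f x y y = 0 := T3_eq_zero_23 h2
  have e3 : T3 F φ f y y y = 0 := T3_eq_zero_12 h3
  have e : T3 F φ f x y z =
      ∑ k ∈ F, ∑ l ∈ F, ∑ m ∈ F, (φ k x - φ k y) * φ l y * (φ m z - φ m y) * f k l m := by
    have e4 : T3 F φ f x y z = T3 F φ f x y z - T3 F φ f y y z - T3 F φ f x y y
        + T3 F φ f y y y := by
      rw [e1, e2, e3]; ring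
    rw [e4]
    unfold T3
    simp only [← Finset.sum_sub_distrib, ← Finset.sum_add_distrib]
    exact Finset.sum_congr rfl fun k _ => Finset.sum_congr rfl fun l _ =>
      Finset.sum_congr rfl fun m _ => by ring
  rw [e]
  have hφ1 : ∀ l ∈ F, φ l y ≤ 1 := fun l hl => by
    rw [← h.sum y]
    exact Finset.single_le_sum (f := fun v => φ v y) (fun v _ => h.nonneg v y) hl
  refine (Finset.abs_sum_le_sum_abs _ _).trans ?_
  rw [Finset.mul_sum, Finset.sum_mul, Finset.sum_mul]
  refine Finset.sum_le_sum fun k hk => (Finset.abs_sum_le_sum_abs _ _).trans ?_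
  rw [Finset.mul_sum, Finset.sum_mul, Finset.sum_mul]
  refine Finset.sum_le_sum fun l hl => (Finset.abs_sum_le_sum_abs _ _).trans ?_
  rw [Finset.mul_sum, Finset.sum_mul, Finset.sum_mul]
  refine Finset.sum_le_sum fun m hm => ?_
  rw [abs_mul, abs_mul, abs_mul, abs_of_nonneg (h.nonneg l y)]
  have a1 := h.lip k hk x y
  have a2 := h.lip m hm z y
  rw [dist_comm z y] at a2
  have a3 := hφ1 l hl
  have hL := h.Lnn
  calc |φ k x - φ k y| * φ l y * |φ m z - φ m y| * |f k l m|
      ≤ (L * dist x y) * 1 * (L * dist y z) * |f k l m| := by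
        refine mul_le_mul_of_nonneg_right ?_ (abs_nonneg _)
        refine mul_le_mul ?_ a2 (abs_nonneg _) (by positivity)
        exact mul_le_mul a1 a3 (h.nonneg l y) (by positivity)
    _ = L ^ 2 * |f k l m| * dist x y * dist y z := by ring

end Vale.Agent.P216.H923F
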